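import Vale.Agent.P129.H520.Old

open Vale.Agent.P129.H189 Vale.Agent.P129.H520

namespace Vale.Agent.Results.P129.FastNullSequences

universe u

/-- Results on the separable quotient problem: weakly compact generation by fewer than non(M) sets,
the least dimension of a barrelled normed space, the full positive answer from free sets and from a
total extension of Lebesgue measure; and the rates in the Josefson-Nissenzweig theorem at points
(threshold non(M)) and on compact sets (threshold `𝔟`), `𝔟 ≤ non(M)`, and the criterion for
separable infinite-dimensional quotients in terms of rates. -/
theorem result :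
    (GeneratedCase.{u} ∧ BarrelledLowerBound.{u} ∧ BarrelledAttained ∧
      (InfiniteFreeSets → FullAnswer.{u}) ∧ (LebesgueExtends → InfiniteFreeSets)) ∧
    PointRates.{u} ∧ CompactRates.{u} ∧ bounding ≤ nonMeagre ∧ RateCriterion.{u} :=
  ⟨⟨generatedCase, barrelledLowerBound, barrelledAttained, fullAnswer_of_free,
    infiniteFreeSets_of_extends⟩, pointRates, compactRates, bounding_le, rateCriterion⟩

end Vale.Agent.Results.P129.FastNullSequences
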