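import Vale.Agent.P129.H189.BSup

open MeasureTheory Set

namespace Vale.Agent.Results.P129.SupportsAndBarrels

open Vale.Agent.P129.H189

universe u

theorem barrelledAttained : BarrelledAttained := by
  intro 𝕜 _ X _ _ _ _ hinf
  obtain ⟨T, hT, hTc⟩ := nonMeagre_mem
  let _ : NormedSpace ℝ X := NormedSpace.restrictScalars ℝ 𝕜 X
  obtain ⟨e, he⟩ := Vale.Agent.P129.exists_digit_map X
  obtain ⟨h1, h2⟩ := Vale.Agent.P129.barrelled_span_of_digit_map (𝕜 := 𝕜) e he T hT
  refine ⟨_, h1, h2, le_antisymm ?_ ?_⟩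
  · refine (rank_span_le _).trans ?_
    rw [← hTc]
    exact Cardinal.mk_image_le
  · have := barrelledLowerBound.{0} 𝕜 _ (not_finiteDimensional_of_dense hinf _ h1) h2
    rwa [Cardinal.lift_id] at this

theorem generatedCase : GeneratedCase.{u} := by
  intro 𝕜 _ X _ _ _ 𝒦 hcompact hspan hcard hinf
  have h0 : Cardinal.aleph0 < Cardinal.lift.{u} nonMeagre :=
    Cardinal.aleph0_lt_lift.2 aleph0_lt_nonMeagre
  have h1 : Cardinal.mk (𝒦 ⊕ ℕ) < Cardinal.lift.{u} nonMeagre := by
    rw [Cardinal.mk_sum]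
    refine Cardinal.add_lt_of_lt h0.le ?_ ?_
    · simpa using hcard
    · simpa using h0
  refine Vale.Agent.P129.hasSepQuot_of_weaklyCompact hinf (ι := 𝒦 ⊕ ℕ)
    (isMeagre_range_of_lt h1)
    (Sum.elim (fun K => (K : Set X)) (fun _ => ∅)) ?_ ?_
  · rintro (K | n)
    · exact hcompact K K.2
    · simp
  · have e1 : (⋃ i, Sum.elim (fun K : 𝒦 => (K : Set X)) (fun _ : ℕ => ∅) i) = ⋃₀ 𝒦 := by
      rw [Set.iUnion_sum]
      simp [Set.sUnion_eq_iUnion]
    rw [e1]
    exact hspan

theorem infiniteFreeSets_of_extends (h : LebesgueExtends) : InfiniteFreeSets := by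
  obtain ⟨ν, hν⟩ := h
  intro F hF
  let μ : @Measure ℝ ⊤ := @Measure.restrict ℝ ⊤ ν (Icc 0 1)
  have hμ : ∀ s : Set ℝ, μ s = ν (s ∩ Icc 0 1) := fun s =>
    @Measure.restrict_apply ℝ ⊤ ν (Icc 0 1) s MeasurableSpace.measurableSet_top
  have h1 : μ univ = 1 := by
    rw [hμ, univ_inter, hν _ measurableSet_Icc, Real.volume_Icc]
    simp
  obtain ⟨g, hg1, hg2⟩ := Vale.Agent.P129.exists_infinite_free μ (by rw [h1]; simp)
    (by rw [h1]; simp) (fun s hs => by
      rw [hμ]
      refine nonpos_iff_eq_zero.1 ?_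
      calc ν (s ∩ Icc 0 1) ≤ ν (toMeasurable volume s) :=
            measure_mono (inter_subset_left.trans (subset_toMeasurable volume s))
        _ = volume (toMeasurable volume s) := hν _ (measurableSet_toMeasurable _ _)
        _ = 0 := by rw [measure_toMeasurable, hs]) F hF
  refine ⟨range g, infinite_range_of_injective hg1, ?_⟩
  rintro s hs _ ⟨j, rfl⟩ hj
  obtain ⟨S, hS⟩ : ∃ S : Finset ℕ, S.image g = s := by
    classical
    refine ⟨s.preimage g hg1.injOn, ?_⟩
    rw [Finset.image_preimage]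
    exact Finset.filter_true_of_mem fun x hx => hs hx
  rw [← hS]
  refine hg2 S j fun hj' => hj ?_
  rw [← hS]
  exact Finset.mem_image_of_mem g hj'

theorem fullAnswer_of_free (h : InfiniteFreeSets) : FullAnswer.{u} := by
  classical
  intro 𝕜 _ X _ _ _ hinf
  refine Vale.Agent.P129.exists_separable_quotient_of_free (fun F hF => ?_) hinf
  obtain ⟨A, hA, hfree⟩ := h F hF
  have g : ℕ ↪ A := hA.natEmbedding
  refine ⟨fun n => (g n : ℝ), Subtype.val_injective.comp g.injective, fun S j hj => ?_⟩
  refine hfree _ ?_ _ (g j).2 ?_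
  · intro x hx
    obtain ⟨i, -, rfl⟩ := Finset.mem_image.1 (Finset.mem_coe.1 hx)
    exact (g i).2
  · intro hx
    obtain ⟨i, hi, hij⟩ := Finset.mem_image.1 hx
    exact hj (g.injective (Subtype.ext hij) ▸ hi)

theorem infiniteFreeSets_of_sierpinski (h : SierpinskiFreeSets) : InfiniteFreeSets := by
  obtain ⟨A, hA, hfree⟩ := h
  intro F hF
  obtain ⟨B, hBA, hB, H⟩ := hfree (fun s => A ∩ F s) fun s => hA _ (hF s)
  exact ⟨B, hB, fun s hs b hb hbs hbF => H s hs b hb hbs ⟨hBA hb, hbF⟩⟩

/-- Results on the separable quotient problem: the earlier five statements, a criterion in terms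
of supports, the supports of functionals on barrelled spaces, the dimensions of the dense barrelled
subspaces of all Banach spaces, densities of countable cofinality, the properties of a smallest
counterexample, and a combinatorial hypothesis for the full positive answer. -/
theorem result :
    (GeneratedCase.{u} ∧ BarrelledLowerBound.{u} ∧ BarrelledAttained ∧
      (InfiniteFreeSets → FullAnswer.{u}) ∧ (LebesgueExtends → InfiniteFreeSets)) ∧
    SupportCriterion.{u} ∧ BarrelledSupports.{u} ∧ DenseBarrelledDimensions.{u} ∧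
      CountableCofinalityCase.{u} ∧ SmallCounterexample.{u} ∧
        (SierpinskiFreeSets → InfiniteFreeSets) :=
  ⟨⟨generatedCase, barrelledLowerBound, barrelledAttained, fullAnswer_of_free,
    infiniteFreeSets_of_extends⟩, supportCriterion, barrelledSupports, denseBarrelledDimensions,
    countableCofinalityCase, smallCounterexample, infiniteFreeSets_of_sierpinski⟩

end Vale.Agent.Results.P129.SupportsAndBarrels
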